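import Vale.Agent.Lib.P074.Third.Basic
import Vale.Agent.Lib.P074.OptMap

/-!
# P074: power-diagram maps are optimal transport maps (job T10)
-/

namespace Vale.Agent.Lib.P074

open MeasureTheory ENNReal

namespace Opt

variable {d n : ℕ}

/-- The level set `{pidx = k}` is a.e. equal to the `k`-th power cell. -/
lemma pidx_preimage_ae_eq {K : Set (E d)} (hK : IsCompact K) {y : Fin (n + 1) → E d}
    (hy : Function.Injective y) (ψ : Fin (n + 1) → ℝ) (k : Fin (n + 1)) :
    (pidx y ψ ⁻¹' {k} : Set (E d)) =ᵐ[unif K] pcell K y ψ k := by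
  filter_upwards [ae_mem_unif hK, ae_pmap_eq hy K ψ] with x hxK hx
  apply propext
  constructor
  · intro h
    have h' : pidx y ψ x = k := h
    show x ∈ pcell K y ψ k
    rw [← h']
    exact mem_pcell_pidx hxK y ψ
  · intro h
    show pidx y ψ x = k
    exact hy (hx k h)

lemma unif_pidx_preimage {K : Set (E d)} (hK : IsCompact K) (hint : (interior K).Nonempty)
    {y : Fin (n + 1) → E d} (hy : Function.Injective y) (ψ : Fin (n + 1) → ℝ)
    (k : Fin (n + 1)) :
    unif K (pidx y ψ ⁻¹' {k}) = ENNReal.ofReal (cmass K y ψ k) := by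
  rw [measure_congr (pidx_preimage_ae_eq hK hy ψ k), ofReal_cmass hK hint]

/-- The image of the uniform measure under the power-diagram map. -/
lemma map_pmap {K : Set (E d)} (hK : IsCompact K) (hint : (interior K).Nonempty)
    {y : Fin (n + 1) → E d} (hy : Function.Injective y) (ψ : Fin (n + 1) → ℝ) :
    (unif K).map (pmap y ψ) = ∑ k, ENNReal.ofReal (cmass K y ψ k) • Measure.dirac (y k) := by
  classical
  ext s hs
  rw [Measure.map_apply (measurable_pmap y ψ) hs]
  simp only [Measure.coe_finsetSum, Finset.sum_apply, Measure.smul_apply, smul_eq_mul,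
    Measure.dirac_apply' _ hs]
  have hpre : pmap y ψ ⁻¹' s = ⋃ k, (if y k ∈ s then pidx y ψ ⁻¹' {k} else ∅) := by
    ext x
    simp only [Set.mem_preimage, Set.mem_iUnion]
    constructor
    · intro hx
      refine ⟨pidx y ψ x, ?_⟩
      have hmem : y (pidx y ψ x) ∈ s := hx
      rw [if_pos hmem]
      rfl
    · rintro ⟨k, hk⟩
      by_cases hks : y k ∈ s
      · rw [if_pos hks] at hk
        have hk' : pidx y ψ x = k := hk
        show y (pidx y ψ x) ∈ s
        rw [hk']
        exact hks
      · rw [if_neg hks] at hk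
        exact absurd hk (Set.notMem_empty x)
  have hdisj : Pairwise (Function.onFun Disjoint
      (fun k => (if y k ∈ s then pidx y ψ ⁻¹' {k} else (∅ : Set (E d))))) := by
    intro i j hij
    simp only [Function.onFun]
    rw [Set.disjoint_left]
    intro x hxi hxj
    by_cases hi : y i ∈ s
    · by_cases hj : y j ∈ s
      · rw [if_pos hi] at hxi
        rw [if_pos hj] at hxj
        have e1 : pidx y ψ x = i := hxi
        have e2 : pidx y ψ x = j := hxj
        exact hij (e1.symm.trans e2)
      · rw [if_neg hj] at hxj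
        exact hxj
    · rw [if_neg hi] at hxi
      exact hxi
  have hmeas : ∀ k, MeasurableSet (if y k ∈ s then pidx y ψ ⁻¹' {k} else (∅ : Set (E d))) := by
    intro k
    by_cases hks : y k ∈ s
    · rw [if_pos hks]
      exact measurable_pidx y ψ (measurableSet_singleton k)
    · rw [if_neg hks]
      exact MeasurableSet.empty
  rw [hpre, measure_iUnion hdisj hmeas, tsum_fintype]
  apply Finset.sum_congr rfl
  intro k _
  by_cases hks : y k ∈ s
  · rw [if_pos hks, unif_pidx_preimage hK hint hy ψ k, Set.indicator_of_mem hks]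
    simp
  · rw [if_neg hks, Set.indicator_of_notMem hks]
    simp

/-- The dual potential on the sites, extended by zero. -/
noncomputable def cfun (y : Fin (n + 1) → E d) (ψ : Fin (n + 1) → ℝ) (z : E d) : ℝ :=
  ∑ k, if z = y k then ‖y k‖ ^ 2 - 2 * ψ k else 0

lemma cfun_apply {y : Fin (n + 1) → E d} (hy : Function.Injective y) (ψ : Fin (n + 1) → ℝ)
    (k : Fin (n + 1)) : cfun y ψ (y k) = ‖y k‖ ^ 2 - 2 * ψ k := by
  unfold cfun
  rw [Finset.sum_eq_single k]
  · simp
  · intro j _ hjk
    rw [if_neg]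
    intro h
    exact hjk (hy h).symm
  · intro h
    exact absurd (Finset.mem_univ k) h

lemma abs_cfun_le (y : Fin (n + 1) → E d) (ψ : Fin (n + 1) → ℝ) (z : E d) :
    |cfun y ψ z| ≤ ∑ k, |‖y k‖ ^ 2 - 2 * ψ k| := by
  unfold cfun
  refine le_trans (Finset.abs_sum_le_sum_abs _ _) ?_
  apply Finset.sum_le_sum
  intro k _
  split_ifs
  · exact le_rfl
  · simp

lemma measurable_cfun (y : Fin (n + 1) → E d) (ψ : Fin (n + 1) → ℝ) :
    Measurable (cfun y ψ) := by
  unfold cfun
  apply Finset.measurable_sum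
  intro k _
  exact Measurable.ite (measurableSet_singleton (y k)) measurable_const measurable_const

/-- The optimality inequality for the power-diagram map. -/
lemma cost_le {K : Set (E d)} (hK : IsCompact K) (hint : (interior K).Nonempty)
    {y : Fin (n + 1) → E d} (hy : Function.Injective y) (ψ : Fin (n + 1) → ℝ)
    (S : E d → E d) (hS : Measurable S)
    (hSmap : (unif K).map S = ∑ k, ENNReal.ofReal (cmass K y ψ k) • Measure.dirac (y k)) :
    ∫⁻ x, ENNReal.ofReal (‖x - pmap y ψ x‖ ^ 2) ∂(unif K) ≤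
      ∫⁻ x, ENNReal.ofReal (‖x - S x‖ ^ 2) ∂(unif K) := by
  have hprob : IsProbabilityMeasure (unif K) := unif_isProbabilityMeasure hK hint
  have hTm : Measurable (pmap (d := d) y ψ) := measurable_pmap y ψ
  have hrange : MeasurableSet ((Set.range y)ᶜ : Set (E d)) :=
    (Set.finite_range y).measurableSet.compl
  have hae : ∀ᵐ x ∂(unif K), S x ∈ Set.range y := by
    have h1 : (∑ k, ENNReal.ofReal (cmass K y ψ k) • Measure.dirac (y k))
        ((Set.range y)ᶜ) = 0 := by
      simp only [Measure.coe_finsetSum, Finset.sum_apply, Measure.smul_apply, smul_eq_mul,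
        Measure.dirac_apply' _ hrange]
      apply Finset.sum_eq_zero
      intro k _
      rw [Set.indicator_of_notMem (by simp), mul_zero]
    rw [← hSmap, Measure.map_apply hS hrange] at h1
    filter_upwards [measure_eq_zero_iff_ae_notMem.mp h1] with x hx
    simpa using hx
  set M : ℝ := ∑ k, |‖y k‖ ^ 2 - 2 * ψ k| with hM
  have hcM : ∀ z, |cfun y ψ z| ≤ M := abs_cfun_le y ψ
  let f : E d → ℝ≥0∞ := fun z => ENNReal.ofReal (cfun y ψ z + M)
  have hf : Measurable f := ((measurable_cfun y ψ).add_const M).ennreal_ofReal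
  have hpt : ∀ᵐ x ∂(unif K), ENNReal.ofReal (‖x - pmap y ψ x‖ ^ 2) + f (S x) ≤
      ENNReal.ofReal (‖x - S x‖ ^ 2) + f (pmap y ψ x) := by
    filter_upwards [hae] with x hx
    obtain ⟨k, hk⟩ := hx
    have hT : ‖x - pmap y ψ x‖ ^ 2 = ‖x‖ ^ 2 - 2 * ppot y ψ x + cfun y ψ (pmap y ψ x) := by
      unfold pmap
      rw [cfun_apply hy, ppot_eq_pidx, norm_sub_sq_real]
      ring
    have hSx : ‖x‖ ^ 2 - 2 * ppot y ψ x + cfun y ψ (S x) ≤ ‖x - S x‖ ^ 2 := by
      rw [← hk, cfun_apply hy, norm_sub_sq_real]
      have := ppot_ge y ψ x k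
      linarith
    have n1 : 0 ≤ cfun y ψ (S x) + M := by
      have := abs_le.mp (hcM (S x))
      linarith
    have n2 : 0 ≤ cfun y ψ (pmap y ψ x) + M := by
      have := abs_le.mp (hcM (pmap y ψ x))
      linarith
    simp only [f]
    rw [← ENNReal.ofReal_add (by positivity) n1, ← ENNReal.ofReal_add (by positivity) n2]
    apply ENNReal.ofReal_le_ofReal
    linarith
  have hint' := lintegral_mono_ae hpt
  have hfS : Measurable (fun x => f (S x)) := hf.comp hS
  have hfT : Measurable (fun x => f (pmap y ψ x)) := hf.comp hTm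
  rw [lintegral_add_right _ hfS, lintegral_add_right _ hfT] at hint'
  have heq : ∫⁻ x, f (S x) ∂(unif K) = ∫⁻ x, f (pmap y ψ x) ∂(unif K) := by
    rw [← lintegral_map hf hS, ← lintegral_map hf hTm, hSmap, map_pmap hK hint hy ψ]
  have hfin : ∫⁻ x, f (pmap y ψ x) ∂(unif K) ≠ ⊤ := by
    have hle : ∫⁻ x, f (pmap y ψ x) ∂(unif K) ≤ ∫⁻ _x, ENNReal.ofReal (2 * M) ∂(unif K) := by
      apply lintegral_mono
      intro x
      simp only [f]
      apply ENNReal.ofReal_le_ofReal
      have := abs_le.mp (hcM (pmap y ψ x))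
      linarith
    refine ne_top_of_le_ne_top ?_ hle
    rw [lintegral_const]
    exact ENNReal.mul_ne_top ENNReal.ofReal_ne_top (measure_ne_top _ _)
  rw [heq] at hint'
  exact ENNReal.le_of_add_le_add_right hfin hint'

end Opt

/-- Power-diagram maps are optimal transport maps onto the corresponding discrete measures. -/
theorem opt_statement (d : ℕ) : OptStatement d := by
  intro K hK _ hint n y ψ hy
  refine ⟨measurable_pmap y ψ, Opt.map_pmap hK hint hy ψ, ?_⟩
  intro S hS hSmap
  exact Opt.cost_le hK hint hy ψ S hS hSmap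

end Vale.Agent.Lib.P074
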